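import Vale.Agent.N301.Pw
import Vale.Agent.N301.Geo

/-!
# P301: from the analytic statements to the cohomological ones
-/

open scoped Manifold ContDiff Topology ComplexConjugate Matrix ComplexOrder
  LinearAlgebra.Projectivization
open Complex (I)
open Filter Set
open Vale.Agent.P272.K Vale.Agent.P299.IX Vale.Agent.P299.IX.Fock
open Vale.Agent.P281Z (Mf)
open Vale.Agent.P281Z.Hg Vale.Agent.P301Z.Lat Vale.Agent.P301Z
open Vale.Agent.P301W (Alt Z2 H2 cls Rp t2 lat tools)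
open Vale.Agent.P301.H599 (IsSymplectic IsMetric curvature SameClass ddc)
open Vale.Agent.N301.Fb Vale.Agent.P301Z.Sa

set_option linter.unusedSectionVars false

noncomputable section

namespace Vale.Agent.N301.Br

section

variable {d : ℕ} {V : Mf d} {ι : Type} {L : LineBundle d V.X ι} {m : ℕ} {f : ι → V.X → ℂ}
  {a : Form d V.X 2} {ρ : ι → V.X → ℝ}

/-- the same line bundle -/
def lb (L : LineBundle d V.X ι) : P301.H599.LineBundle d V.X ι :=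
  ⟨L.U, L.isOpen, L.cover, L.g, fun i j e x he hi hj => L.holo i j x hi hj e he, L.ne_zero,
    L.cocycle⟩

theorem sec_iff : Sec L m f ↔ P301.H99.Sec (lb L) m f :=
  ⟨fun h => ⟨fun i e x he hi => h.1 i x hi e he, h.2⟩, fun h => ⟨fun i x hi e he => h.1 i e x he hi, h.2⟩⟩

theorem chern_iff (hρ : IsMetric (lb L) ρ) :
    (∀ e x, At e x → Fml ((2 * Real.pi) • a e (e x)) (curvature (lb L) ρ e (e x))) ↔
    ∀ i e x, At e x → x ∈ L.U i → ContDiffAt ℝ ∞ (fun z => ρ i (e.symm z)) (e x) ∧ ∀ u v : Cm d,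
      a e (e x) ![u, v] = (iteratedFDeriv ℝ 2 (fun z => ρ i (e.symm z)) (e x) ![I • u, v] -
        iteratedFDeriv ℝ 2 (fun z => ρ i (e.symm z)) (e x) ![u, I • v]) / (4 * Real.pi) := by
  have k := fun i e x he hi => fml_hess (a := a e (e x))
    ((hρ.smooth i e x he hi).of_le INT.two_le_inf)
  refine ⟨fun h i e x he hi => ⟨hρ.smooth i e x he hi, (k i e x he hi).1 ?_⟩, fun h e x he => ?_⟩
  · have := h e x he
    rwa [(lat.d11.curv hρ).2 i e x he hi] at this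
  · obtain ⟨i, hi⟩ := L.cover x
    rw [(lat.d11.curv hρ).2 i e x he hi]
    exact (k i e x he hi).2 (h i e x he hi).2

theorem of_chern (h : Chern L a) : ∃ ρ, IsMetric (lb L) ρ ∧
    ∀ e x, At e x → Fml ((2 * Real.pi) • a e (e x)) (curvature (lb L) ρ e (e x)) :=
  let ⟨_, ρ, h1, h2⟩ := h
  have hρ : IsMetric (lb L) ρ := ⟨fun i e x he hi => (h2 i e x he hi).1, h1⟩
  ⟨ρ, hρ, (chern_iff hρ).2 h2⟩

theorem exists_chern (L : LineBundle d V.X ι) : ∃ a, Chern L a := by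
  obtain ⟨ρ, hρ⟩ := P301.H450.exists_metric (lb L)
  obtain ⟨b, hb⟩ := form_of (lat.d11.curv hρ).1
  refine ⟨((2 * Real.pi)⁻¹ • b).1, closed_of _, ρ, hρ.change, (chern_iff hρ).1 fun e x he => ?_⟩
  have : (2 * Real.pi) • ((2 * Real.pi)⁻¹ • b).1 e (e x) = b.1 e (e x) :=
    smul_inv_smul₀ Real.two_pi_pos.ne' _
  rw [this]
  exact hb e x he

open P285.H231.PB in
/-- a semiample line bundle has a semipositive metric -/
theorem exists_psd (h : Semiample L) :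
    ∃ ρ, IsMetric (lb L) ρ ∧ ∀ e x, At e x → (curvature (lb L) ρ e (e x)).PosSemidef := by
  obtain ⟨m, hm, h⟩ := h
  obtain ⟨N, F, hF⟩ := exists_spn (lb L) m
  have G : Gn (lb L) m := fun x =>
    let ⟨f, h1, _, h2, h3⟩ := h x
    ⟨f, sec_iff.1 h1, (vv_ne (sec_iff.1 h1) h2).2 h3⟩
  have hne : ∀ i x, x ∈ L.U i → ∃ j, F j i x ≠ 0 := fun i x hx =>
    (hF.ex G x).imp fun j hj => (vv_ne (hF.1 j) hx).1 hj
  have hpos : ∀ i x, x ∈ L.U i → 0 < ∑ j, ‖F j i x‖ ^ 2 := fun i x hx =>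
    let ⟨j, hj⟩ := hne i x hx
    Finset.sum_pos' (fun a _ => by positivity) ⟨j, Finset.mem_univ j, by positivity⟩
  have hhol : ∀ i (e : Chart d V.X) x, At e x → x ∈ L.U i → ∀ j,
      ContDiffAt ℂ ω (fun z => F j i (e.symm z)) (e x) := fun i e x he hx j =>
    ((hF.1 j).1 i e x he hx).contDiffAt
  have hsm : ∀ i (e : Chart d V.X) x, At e x → x ∈ L.U i → ∀ k : WithTop ℕ∞,
      ContDiffAt ℝ k (fun z => Real.log (∑ j, ‖F j i (e.symm z)‖ ^ 2)) (e x) := by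
    intro i e x he hx k
    refine (contDiffAt_sum_sq (f := fun j z => F j i (e.symm z)) (hhol i e x he hx)).log ?_
    rw [e.left_inv he.2]
    exact (hpos i x hx).ne'
  have hρ : IsMetric (lb L) fun i x => (1 / m : ℝ) * Real.log (∑ j, ‖F j i x‖ ^ 2) := by
    refine ⟨fun i e x he hx => contDiffAt_const.mul (hsm i e x he hx _), fun i j x hi hj => ?_⟩
    have h1 : ∀ a, ‖F a i x‖ ^ 2 = ‖(lb L).g i j x‖ ^ (2 * m) * ‖F a j x‖ ^ 2 := fun a => by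
      rw [(hF.1 a).2 i j x hi hj, norm_mul, norm_pow]
      ring
    simp only [h1]
    rw [← Finset.mul_sum, Real.log_mul
      (pow_ne_zero _ (norm_ne_zero_iff.2 ((lb L).ne_zero i j x hi hj))) (hpos j x hj).ne',
      Real.log_pow, Real.log_pow]
    push_cast
    field_simp
    ring
  refine ⟨_, hρ, fun e x he => ?_⟩
  obtain ⟨i, hi⟩ := L.cover x
  rw [(lat.d11.curv hρ).2 i e x he hi, ddc, C2.cHess_const_mul _ (hsm i e x he hi 2)]
  exact P285Z.Ch.psd_smul (by positivity) (cHess_log_sum_psd (f := fun j z => F j i (e.symm z))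
    (hhol i e x he hi) (by rw [e.left_inv he.2]; exact hne i x hi))

end

variable {n : ℕ} {V : Mf (n + n)} {ι : Type} {L : LineBundle (n + n) V.X ι}
  {s : HForm (n + n) V.X}

open P301W.As in
/-- the cohomological part -/
theorem coho (hn : 0 < n) (sc : SimplyConnectedSpace V.X) (hs : IHS s) :
    (∀ a a', Chern L a → Chern L a' → Coh a a') ∧ ∀ a, Chern L a → (Semiample L → Nef a) ∧
      (¬ Coh a 0 → Nef a → Isotropic a → ∃ W ρ, Dat V W (fun e z => mt (s e z)) (lb L) ρ) := by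
  have h := lat
  obtain ⟨w, hw⟩ := hs.kahler
  obtain ⟨W, hW, hW'⟩ := kahler_of hw
  have hS := symp hs hW
  obtain ⟨r, B, m, fuj, p, k, H⟩ := h.ex V sc W _ hn hS
  obtain ⟨Φ, hΦ⟩ := P301W59.iso_row tools P301W59.rep_row _ r V m
  obtain ⟨r1, -, r3⟩ := P301W59.rep_row tools _ V
  obtain ⟨κ, hκ, hT⟩ := P301W93.topp (n + n)
  set Y : MK B := ⟨V, sc, m, fuj⟩
  have hC : ∀ {A : Fld V} (b : Z2 (n + n) V.X), R11 A →
      (∀ e x, At e x → Fml (b.1 e (e x)) (A e (e x))) → Y.C11 A (Φ (cls b)) := fun b hA hb =>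
    let ⟨u, hu⟩ := r1 b
    ⟨hA, u, (is11 P301W13.f11 hu).2 hb, (r3 b u hu).1, hΦ b u hu⟩
  have hs' : ∀ (c : ℝ) (b : Z2 (n + n) V.X), Φ (cls (c • b)) = c • Φ (cls b) := fun c b =>
    map_smul Φ c (cls b)
  have ha' : ∀ b b' : Z2 (n + n) V.X, Φ (cls (b + b')) = Φ (cls b) + Φ (cls b') := fun b b' =>
    map_add Φ (cls b) (cls b')
  have hπ : (2 * Real.pi) ≠ 0 := Real.two_pi_pos.ne'
  obtain ⟨ρ₀, hρ₀⟩ := P301.H450.exists_metric (lb L)
  obtain ⟨l, hl₀⟩ := h.c1 Y (lb L) ρ₀ hρ₀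
  have hl : ∀ {ρ}, IsMetric (lb L) ρ → Y.C1 (lb L) ρ l := fun hρ =>
    ⟨hρ, h.rel.same hl₀.2 (h.d11.curv hρ).1 (same h.d11 hρ₀ hρ)⟩
  have h1 : ∀ {a} (ha : Chern L a), Φ (cls (z2 ha.1)) = zr l := fun ha => by
    obtain ⟨ρ, hρ, h2⟩ := of_chern ha
    have h3 := hC ((2 * Real.pi) • z2 ha.1) (h.d11.curv hρ).1 h2
    rw [hs'] at h3
    exact smul_right_injective _ hπ (AsH.c11_uniq h3 (hl hρ).2)
  have hk : Φ (cls (z2 hw.closed)) = k := AsH.c11_uniq (hC _ (R11.kahler hW) hW') H.2.1.2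
  refine ⟨fun a a' ha ha' => (coh_iff (z2 ha.1) (z2 ha'.1)).2
    (Φ.injective ((h1 ha).trans (h1 ha').symm)), fun a ha => ⟨fun h2 => ?_, fun h2 h3 h4 => ?_⟩⟩
  · obtain ⟨ρ, hρ, h3⟩ := exists_psd h2
    refine ⟨1, fun _ => w, fun _ => hw.closed, fun ε hε => ⟨fun _ => ε / 2, ?_, ?_⟩⟩
    · rw [pi_norm_const, Real.norm_of_nonneg (half_pos hε).le]
      exact half_lt_self hε
    · have h4 := h.rel.add (2 * Real.pi)⁻¹ (ε / 2) (hl hρ).2 H.2.1.2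
      obtain ⟨b, hb⟩ := form_of h4.1
      refine ⟨b.1, of_kahler (h4.1.kah fun e x hx => ?_) hb, ?_⟩
      · refine Matrix.PosDef.posSemidef_add (P285Z.Ch.psd_smul (by positivity) (h3 e x hx)) ?_
        exact (hW.posDef e x hx).smul (Complex.zero_lt_real.2 (half_pos hε))
      · rw [Fin.sum_univ_one]
        refine (coh_iff b (z2 ha.1 + (ε / 2) • z2 hw.closed)).2 (Φ.injective ?_)
        rw [ha', hs', h1 ha, hk, AsH.c11_uniq (hC b h4.1 hb) h4, inv_smul_smul₀ hπ]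
  · refine ⟨W, ρ₀, sc, hS, hρ₀, ?_, ?_, fun c => h2 ((coh_iff (z2 ha.1) 0).2 (Φ.injective ?_))⟩
    · obtain ⟨q, η, k1, k2⟩ := h3
      refine P301W.nefl n r B Y _ W p k H ι (lb L) ρ₀ l hl₀ fun ε hε => ?_
      have c1 : ContinuousAt (fun t : Fin q → ℝ => ∑ i, t i • Φ (cls (z2 (k1 i)))) 0 :=
        (continuous_finsetSum _ fun i _ => (continuous_apply i).smul continuous_const).continuousAt
      obtain ⟨δ, hδ, c2⟩ := Metric.continuousAt_iff.1 c1 ε hε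
      obtain ⟨t, t1, w', t2, t3⟩ := k2 δ hδ
      obtain ⟨W', t4, t5⟩ := kahler_of t2
      refine ⟨W', _, 1, one_pos, ⟨t4, hC (z2 t2.closed) (R11.kahler t4) t5⟩, ?_⟩
      have t6 : (z2 ha.1 + ∑ i, t i • z2 (k1 i)).1 = a + ∑ i, t i • η i :=
        congrArg (a + ·) (Submodule.coe_sum _ _ _)
      have t7 : Φ (cls (∑ i, t i • z2 (k1 i))) = ∑ i, t i • Φ (cls (z2 (k1 i))) :=
        (map_sum (Φ.toLinearMap.comp (P301W.B2 _ _).mkQ) _ _).trans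
          (Finset.sum_congr rfl fun i _ => hs' _ _)
      rw [(coh_iff (z2 t2.closed) _).1 (t6 ▸ t3), ha', h1 ha, t7, one_smul, add_sub_cancel_left]
      simpa using c2 (x := t) (by simpa using t1)
    · obtain ⟨u, hu⟩ := r1 (z2 ha.1)
      have k1 := ((h.vol.dens u).1.const_mul κ).isIntegral
      have k2 := congrArg Complex.re (fuj u (r3 _ u hu).1)
      rw [hΦ _ u hu, qC_rc, ← Complex.ofReal_pow, ← Complex.ofReal_mul, Complex.ofReal_re, Vol,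
        itg] at k2
      simp only [Complex.add_re, Complex.ofReal_re, Complex.mul_re, Complex.I_re, Complex.I_im,
        Complex.ofReal_im, zero_mul, mul_zero, sub_zero, add_zero] at k2
      rw [INT.intX_const_mul, k2, ← mul_assoc, h1 ha] at k1
      have k3 := int_congr (D' := fun e z => top (a e z)) k1 fun e x hx => by
        have h3 := congrArg Complex.re (hT (a e (e x)))
        rwa [Complex.ofReal_re, Complex.re_ofReal_mul, show t2 (a e (e x)) = _ from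
          (hu e x hx).symm] at h3
      have k4 := (INT.intX_eq_of_isIntegral k3).symm.trans (INT.intX_eq_of_isIntegral h4)
      exact (h.iso hl₀).2 ((pow_eq_zero_iff hn.ne').1
        ((mul_eq_zero.1 k4).resolve_left (mul_pos hκ B.Cpos).ne'))
    · rw [h1 ha, (h.l0 H.2.1 H.2.2 hl₀).2 c]
      exact (funext fun i => by simp [Lat.zr]).trans (map_zero Φ).symm

/-- the geometric part -/
theorem geom {W ρ} (D : Dat V W (fun e z => mt (s e z)) (lb L) ρ) : Semiample L ∧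
    (∃ (m N : ℕ) (f : Fin N → ι → V.X → ℂ) (φ : V.X → ℙ ℂ (Cm N)), 0 < m ∧ (∀ j, Sec L m (f j)) ∧
      (∀ g, Sec L m g → ∃ c : Fin N → ℂ, ∀ i x, x ∈ L.U i → g i x = ∑ j, c j * f j i x) ∧
      (∀ i x, x ∈ L.U i → ∃ h : (fun j => f j i x) ≠ 0, φ x = Projectivization.mk ℂ _ h) ∧
      (∀ x, IsConnected (φ ⁻¹' {φ x}) ∧ Lagrangian n s (φ ⁻¹' {φ x})) ∧
      ∃ O : Set V.X, IsOpen O ∧ Dense O ∧ (∀ x ∈ O, φ ⁻¹' {φ x} ⊆ O) ∧ ∀ x ∈ O, ∀ e, At e x →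
        ∃ u : Cm (n + n) → Cm n, AnalyticAt ℂ u (e x) ∧ Function.Surjective (fderiv ℂ u (e x)) ∧
          ∃ U ∈ 𝓝 x, ∀ y ∈ U, ∀ y' ∈ U, φ y = φ y' ↔ u (e y) = u (e y')) ∧
    ∃ (K : ℕ) (c C : ℝ), 0 < K ∧ 0 < c ∧ ∀ m k : ℕ,
      ((k : ℝ) ≤ c * m ^ n → H0 L (K * m) k) ∧ (H0 L m k → (k : ℝ) ≤ C * (m + 1) ^ n) := by
  obtain ⟨M, H⟩ := D.min
  obtain ⟨N, F, hF⟩ := exists_spn (lb L) M
  have h0 : ∀ x, (fun j => vv (lb L) (F j) x) ≠ 0 := fun x => Function.ne_iff.2 (hF.ex H.gn x)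
  have h1 : ∀ x y, Projectivization.mk ℂ _ (h0 x) = Projectivization.mk ℂ _ (h0 y) ↔
      Rl (lb L) M x y := fun x y => by
    rw [Projectivization.mk_eq_mk_iff']
    refine ⟨fun ⟨c, hc⟩ => hF.rl fun j l => ?_, fun R => ?_⟩
    · rw [← congrFun hc j, ← congrFun hc l]
      simp only [Pi.smul_apply, smul_eq_mul]
      ring
    · obtain ⟨l, hl⟩ := hF.ex H.gn y
      refine ⟨vv (lb L) (F l) x / vv (lb L) (F l) y, funext fun j => ?_⟩
      rw [Pi.smul_apply, smul_eq_mul, div_mul_eq_mul_div, R _ _ (hF.1 l) (hF.1 j),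
        mul_div_cancel_right₀ _ hl]
  have h2 : ∀ x, (fun y => Projectivization.mk ℂ _ (h0 y)) ⁻¹' {Projectivization.mk ℂ _ (h0 x)} =
      {y | Rl (lb L) M x y} := fun x => Set.ext fun y => eq_comm.trans (h1 x y)
  refine ⟨⟨M, H.pos, fun x => ?_⟩, ⟨M, N, F, fun x => Projectivization.mk ℂ _ (h0 x), H.pos,
    fun j => sec_iff.2 (hF.1 j), fun g hg => ?_, fun i x hx => ?_, fun x => ?_, ?_⟩, ?_⟩
  · obtain ⟨f, a, b⟩ := H.gn x
    exact ⟨f, sec_iff.2 a, _, ix_mem (lb L) x, b⟩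
  · obtain ⟨c, hc⟩ := hF.2 g (sec_iff.1 hg)
    refine ⟨c, fun i x hx => mul_left_cancel₀ (g_ne (L := lb L) hx M) ?_⟩
    rw [← vv_eq (sec_iff.1 hg) hx, hc, Finset.mul_sum]
    exact Finset.sum_congr rfl fun j _ => by rw [vv_eq (hF.1 j) hx]; ring
  · refine ⟨Function.ne_iff.2 ((hF.ex H.gn x).imp fun j hj => (vv_ne (hF.1 j) hx).1 hj), ?_⟩
    exact (Projectivization.mk_eq_mk_iff' ℂ _ _ _ _).2 ⟨_, funext fun j => (vv_eq (hF.1 j) hx).symm⟩
  · rw [h2]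
    refine ⟨⟨⟨x, Rl.refl x⟩, D.conn H x⟩, fun e k γ t G => ext2 fun u v => ?_, fun y hy U hU => ?_⟩
    · rw [comp_val]
      exact D.iso H G.chart ⟨G.holo, G.mem, G.sub⟩ u v
    · obtain ⟨γ, t, a, b, c⟩ := D.dim H (P277Z.at_chart y) hU
      exact ⟨_, γ, t, ⟨chart_mem_atlas _ _, a.an, a.mem, a.sub.mono fun _ k => hy.trans H.gn k⟩, b, c⟩
  · obtain ⟨k, σ, S⟩ := D.sys
    refine ⟨_, open_Gd S, D.dense_Gd H S, fun x hx y hy z hz =>
      hx z (((h1 x y).1 (Eq.symm hy)).trans H.gn hz), fun x hx e he => ?_⟩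
    obtain ⟨a, b⟩ := hx x (Rl.refl x)
    obtain ⟨U, u1, u2⟩ := D.loc H S a b
    refine ⟨fun z j => rat (lb L) σ j (e.symm z), AnalyticAt.pi fun j => b.1 j e he, ?_,
      U ∩ e.source, inter_mem u1 (e.open_source.mem_nhds he.2), fun y hy y' hy' => ?_⟩
    · rw [fderiv_pi fun j => (b.1 j e he).differentiableAt]
      exact (P277Z.Slc.ind_iff_surj _).1 (b.2 e he)
    · rw [h1, u2 y hy.1 y' hy'.1]
      simp only [e.left_inv hy.2, e.left_inv hy'.2, funext_iff]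
  · obtain ⟨K, hK, c, hc, h3⟩ := D.grow
    obtain ⟨C, h4⟩ := D.upper
    exact ⟨K, c, C, hK, hc, fun m k => ⟨fun a => (h3 m k a).imp fun f b =>
      ⟨fun j => sec_iff.2 (b.1 j), b.2⟩, fun ⟨f, a, b⟩ => h4 m k ⟨f, fun j => sec_iff.1 (a j), b⟩⟩⟩

theorem main (n : ℕ) (hn : 1 ≤ n) (d : ℕ) (hd : d = n + n) (X : Type) [TopologicalSpace X]
    [T2Space X] [CompactSpace X] [SimplyConnectedSpace X] [ChartedSpace (Cm d) X]
    [IsManifold 𝓘(ℂ, Cm d) ω X] (s : HForm d X) (hs : IHS s) (ι : Type) (L : LineBundle d X ι) :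
    (∃ a, Chern L a) ∧ (∀ a a', Chern L a → Chern L a' → Coh a a') ∧ ∀ a, Chern L a →
      (Semiample L → Nef a) ∧ (¬ Coh a 0 → Nef a → Isotropic a → Semiample L ∧
      (∃ (m N : ℕ) (f : Fin N → ι → X → ℂ) (φ : X → ℙ ℂ (Cm N)), 0 < m ∧ (∀ j, Sec L m (f j)) ∧
        (∀ g, Sec L m g → ∃ c : Fin N → ℂ, ∀ i x, x ∈ L.U i → g i x = ∑ j, c j * f j i x) ∧
        (∀ i x, x ∈ L.U i → ∃ h : (fun j => f j i x) ≠ 0, φ x = Projectivization.mk ℂ _ h) ∧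
        (∀ x, IsConnected (φ ⁻¹' {φ x}) ∧ Lagrangian n s (φ ⁻¹' {φ x})) ∧
        ∃ O : Set X, IsOpen O ∧ Dense O ∧ (∀ x ∈ O, φ ⁻¹' {φ x} ⊆ O) ∧ ∀ x ∈ O, ∀ e, At e x →
          ∃ u : Cm d → Cm n, AnalyticAt ℂ u (e x) ∧ Function.Surjective (fderiv ℂ u (e x)) ∧
            ∃ U ∈ 𝓝 x, ∀ y ∈ U, ∀ y' ∈ U, φ y = φ y' ↔ u (e y) = u (e y')) ∧
      ∃ (K : ℕ) (c C : ℝ), 0 < K ∧ 0 < c ∧ ∀ m k : ℕ,
        ((k : ℝ) ≤ c * m ^ n → H0 L (K * m) k) ∧ (H0 L m k → (k : ℝ) ≤ C * (m + 1) ^ n)) := by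
  subst hd
  obtain ⟨h1, h2⟩ := coho (V := ⟨X⟩) (L := L) hn ‹_› hs
  exact ⟨exists_chern (V := ⟨X⟩) L, h1, fun a ha => ⟨(h2 a ha).1, fun b c e =>
    let ⟨_, _, D⟩ := (h2 a ha).2 b c e
    geom D⟩⟩

end Vale.Agent.N301.Br
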