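import Vale.Agent.N301.Rel
import Vale.Agent.P301Z.All

/-!
# P301: the ratios of sections commute; consequences
-/

open scoped Manifold ContDiff Topology Matrix ComplexOrder
open Set Filter
open Vale.Agent.P272.K Vale.Agent.P301.H599 Vale.Agent.P301.H99 Vale.Agent.P301.H450
open Vale.Agent.P277Z (Hol at_chart)
open Vale.Agent.P277Z.Slc (Ind dd)
open Vale.Agent.P281Z Vale.Agent.P301Z Vale.Agent.P301Z.Sa
open Vale.Agent.P285Z (PSD powM)
open Vale.Agent.P301.H98 (IsSection nrm)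
open Vale.Agent.P301.H862 (powL)

set_option linter.unusedSectionVars false

noncomputable section

namespace Vale.Agent.N301.Fb

/-- the data -/
structure Dat {n : ℕ} (X : Mf (n + n)) (w s : Lat.Fld X) {ι : Type} (L : LineBundle (n + n) X.X ι)
    (ρ : ι → X.X → ℝ) : Prop where
  sc : SimplyConnectedSpace X.X
  hs : IsSymplectic (n + n) X.X w s
  hρ : IsMetric L ρ
  hn : Nef w L ρ
  hi : Isotropic L ρ
  hc : ¬ SameClass (curvature L ρ) fun _ _ => 0

/-- the ratio of two sections -/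
def rt {d : ℕ} {X : Type} [TopologicalSpace X] [ChartedSpace (Cm d) X] {ι : Type}
    (L : LineBundle d X ι) (g h : ι → X → ℂ) (y : X) : ℂ := vv L g y / vv L h y

variable {n : ℕ} {X : Mf (n + n)} {w s : Lat.Fld X} {ι : Type} {L : LineBundle (n + n) X.X ι}
  {ρ : ι → X.X → ℝ} {m k : ℕ} {f g g' h : ι → X.X → ℂ} {x y : X.X} {e : Chart (n + n) X.X}

theorem Dat.pos (D : Dat X w s L ρ) : 0 < n := by
  refine Nat.pos_of_ne_zero fun k => D.hc ⟨fun _ => 0, fun _ _ _ => contDiffAt_const, ?_⟩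
  subst k
  exact fun _ _ _ => Matrix.ext fun a _ => a.elim0

open Fin0 in
theorem Dat.grow (D : Dat X w s L ρ) : Semi.Grow L n := by
  obtain ⟨r, B, m, fuj, p, k, hX⟩ := Tp.la1_of lat n X D.sc w s D.pos D.hs
  obtain ⟨⟨l, hl'⟩, h3⟩ := Tp.la3_of lat n r B ⟨X, D.sc, m, fuj⟩ s w p k hX ι L ρ D.hρ
  obtain ⟨-, a1, a2, a3⟩ := h3 l hl'
  have hll := a1.1 D.hi
  exact Tp.grow (Tp.la2_of lat) (Tp.la3_of lat) (Tp.nefl_of lat) (Dg.defo lat) Li.lin
    Rot.rotc (Rot.rot1' lat) (Al.alg lat) (Hl.hl lat) Rot.iso (Pt.flat lat) Tor.tor Sec.sec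
    Semi.semi2 ⟨X, D.sc, m, fuj⟩ hX L ρ hl' hll (a3 D.hn hll fun h => D.hc (a2.2 h))

theorem Dat.semi (D : Dat X w s L ρ) : ∃ m, 0 < m ∧ Gn L m := by
  have := D.sc
  obtain ⟨m, hm, h⟩ := Fin0.abun n X w s D.hs ι L ρ D.hρ D.hn D.hi D.hc D.grow
  exact ⟨m, hm, fun x => let ⟨f, h1, _, h2, h3⟩ := h x; ⟨f, h1, (vv_ne h1 h2).2 h3⟩⟩

theorem Dat.sys (D : Dat X w s L ρ) : ∃ (k : ℕ) (σ : Fin (n + 1) → ι → X.X → ℂ), Sys L k σ :=
  have := D.sc
  rank _ n X ι L ρ ⟨w, D.hs.kahler⟩ D.hρ D.pos D.grow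

open Lf in
theorem Dat.com (D : Dat X w s L ρ) {r : ℕ} {σ : Fin (r + 1) → ι → X.X → ℂ}
    (S : ∀ j, Sec L k (σ j)) (hx : x ∉ Zr L (σ 0)) : Com s (rat L σ) x := by
  have := D.sc
  have hs := D.hs
  have hρ := D.hρ
  have h0 : 0 < n + n := by have := D.pos; omega
  borelize X.X
  obtain ⟨φ, E, hE⟩ := P285K.envK _ X.X w _ hs.kahler (P301.H98.rform_curvature hρ) D.hn
  obtain ⟨u, κ, -, hk⟩ := exists_rf hs hs.kahler
  have hp : ∀ e x, At e x → curvature (powL L k) (powM ρ k) e (e x) =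
      (fun e z => ((k : ℝ) : ℂ) • curvature L ρ e z) e (e x) := P285Z.curvature_pow hρ k
  have H : Dt (powL L k) (powM ρ k) σ w _ s κ (fun j => k * (1 / ((j : ℝ) + 1)))
      fun j x => k * φ j x :=
    { sd := SData.of hs hk
      kah := hs.kahler
      met := P285Z.isMetric_pow hρ k
      iso := by
        rw [q_congr (a' := fun e z => ((k : ℝ) : ℂ) • curvature L ρ e z)
          (b' := fun e z => ((k : ℝ) : ℂ) • curvature L ρ e z) hp hp, q_smul_left,
          q_smul_right (SData.of hs hk), ZL.q_eq_zero_of_int h0 hs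
          (isReal11_curvature hρ) D.hn (INT.intX_eq_of_isIntegral D.hi), mul_zero, mul_zero]
      sec := fun j => isSec (S j)
      nn := fun j => by positivity
      lim := by simpa using tendsto_one_div_add_atTop_nhds_zero_nat.const_mul (k : ℝ)
      sm := fun j e x hx => contDiffAt_const.mul ((hE.inS j).smooth e x hx)
      np := fun j x => mul_nonpos_of_nonneg_of_nonpos k.cast_nonneg ((hE.inS j).nonpos x)
      psd := fun j e x hx => by
        have a := P285Z.Ch.psd_smul k.cast_nonneg ((hE.inS j).psd e x hx)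
        show (curvature (powL L k) (powM ρ k) e (e x) + _ + cHess _ _).PosSemidef
        rw [hp e x hx, C2.cHess_const_mul _ (P285Z.Ch.sm_two (hE.inS j).smooth hx),
          Complex.ofReal_mul, mul_smul, ← smul_add, ← smul_add]
        exact a }
  exact fun e he i j => H.com he.1 (mem_U he
    (mul_ne_zero (pow_ne_zero 2 (norm_ne_zero_iff.2 hx)) (Real.exp_pos _).ne')) i j

theorem Dat.com2 (D : Dat X w s L ρ) (hg : Sec L m g) (hg' : Sec L m g') (hh : Sec L m h)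
    (h0 : vv L h x ≠ 0) (he : At e x) :
    gr (rt L g h) e x ⬝ᵥ ((s e (e x))⁻¹ *ᵥ gr (rt L g' h) e x) = 0 :=
  D.com (σ := ![h, g, g']) (fun j => by fin_cases j <;> assumption) h0 e he 0 1

theorem gr_dd {d : ℕ} {Y : Type} [TopologicalSpace Y] [ChartedSpace (Cm d) Y] {u : Y → ℂ}
    {e : Chart d Y} {x : Y} (he : At e x) (hu : Hol d u x) (v : Cm d) :
    gr u e x ⬝ᵥ v = dd u e x v := Ho.gr_dot he hu v

theorem Dat.nosys (D : Dat X w s L ρ) :
    ¬ ∃ (k : ℕ) (σ : Fin (n + 1 + 1) → ι → X.X → ℂ), Sys L k σ := by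
  rintro ⟨k, σ, -, h1, x, h2, h3⟩
  have he := at_chart (n := n + n) x
  set e := chartAt (Cm (n + n)) x
  let T : Cm (n + 1) →ₗ[ℂ] Cm (n + n) := Fintype.linearCombination ℂ fun j => gr (rat L σ j) e x
  have hT : ∀ a, T a = ∑ j, a j • gr (rat L σ j) e x := fun a => rfl
  have h4 := DimA.rk_le (two_mul n).symm (S := (s e (e x))⁻¹) (by
    rw [Matrix.det_nonsing_inv, Ring.inverse_eq_inv]
    exact inv_ne_zero (D.hs.nondeg e x he)) (LinearMap.toContinuousLinearMap T) fun a b => by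
      show T a ⬝ᵥ ((s e (e x))⁻¹ *ᵥ T b) = 0
      simp only [hT, Matrix.mulVec_sum, sum_dotProduct, dotProduct_sum, Matrix.mulVec_smul,
        smul_dotProduct, dotProduct_smul]
      refine Finset.sum_eq_zero fun i _ => ?_
      rw [Finset.sum_eq_zero fun j _ => ?_, smul_zero]
      rw [show gr (rat L σ j) e x ⬝ᵥ ((s e (e x))⁻¹ *ᵥ gr (rat L σ i) e x) = 0 from
        D.com h1 h2 e he j i, smul_zero]
  have h5 : Function.Injective T := by
    refine (injective_iff_map_eq_zero _).2 fun a ha => funext ?_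
    refine Fintype.linearIndependent_iff.1 (h3.2 e he) a (ContinuousLinearMap.ext fun v => ?_)
    have := congrArg (· ⬝ᵥ v) ha
    simp only [hT, sum_dotProduct, smul_dotProduct, zero_dotProduct, gr_dd he (h3.1 _)] at this
    simpa using this
  have h6 := LinearMap.finrank_range_of_inj h5
  rw [Module.finrank_fin_fun] at h6
  have h7 : Ana.rk (LinearMap.toContinuousLinearMap T) = n + 1 := h6
  omega

/-- the ratio of two sections is a function of `n` independent ratios -/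
theorem Dat.fn (D : Dat X w s L ρ) {σ : Fin (n + 1) → ι → X.X → ℂ} (hk : 0 < k)
    (S : ∀ j, Sec L k (σ j)) (h0 : vv L (σ 0) x ≠ 0) (hi : Ind (n + n) (rat L σ) x)
    (hf : Sec L m f) (hh : Sec L m h) (h1 : vv L h x ≠ 0) : ∃ A : Cm n → ℂ,
      AnalyticAt ℂ A (fun j => rat L σ j x) ∧ ∀ᶠ y in 𝓝 x, rt L f h y = A fun j => rat L σ j y := by
  refine RankX.fac hi (ratio_hol hf hh h1) ?_
  filter_upwards [vv_near (S 0) h0, vv_near hh h1] with y a b hI
  refine D.nosys ⟨m + k, Fin.cons (fun i y => h i y * σ 0 i y)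
    (Fin.cons (fun i y => f i y * σ 0 i y) fun j i y => h i y * σ j.succ i y), by omega,
    Fin.cases (sec_mul hh (S 0)) (Fin.cases (sec_mul hf (S 0)) fun j => sec_mul hh (S _)), y,
    mul_ne_zero b a, ind_congr hI fun c => ?_⟩
  filter_upwards [vv_near (S 0) a, vv_near hh b] with z a' b'
  refine Fin.cases ?_ (fun j => ?_) c
  · exact (mul_div_mul_right _ _ a').symm
  · exact (mul_div_mul_left _ _ b').symm

/-- the two projections of the resolved relation are not separated by sections -/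
theorem Dat.rel (D : Dat X w s L ρ) {σ : Fin (n + 1) → ι → X.X → ℂ} (hk : 0 < k)
    (S : ∀ j, Sec L k (σ j)) {B : Set X.X} (hB : Zr L (σ 0) ⊆ B) (G : Rt X (rat L σ) B)
    (hm : Gn L m) (z : G.W.X) : Rl L m (G.p z) (G.q z) := by
  obtain ⟨N, F, hF⟩ := exists_spn L m
  have hc : IsClosed {z : G.W.X | Rl L m (G.p z) (G.q z)} :=
    (closed_Rl L m).preimage (G.hp.cont.prodMk G.hq.cont)
  refine hc.closure_subset_iff.2 (fun z hz => ?_) (G.thin.dense z)
  obtain ⟨h1, h2⟩ := not_or.1 hz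
  obtain ⟨z₀, a1, a2⟩ := G.refl (G.p z)
  have key : ∀ y ∈ G.q '' (G.p ⁻¹' {G.p z}) \ B, ∀ᶠ y' in 𝓝[G.q '' (G.p ⁻¹' {G.p z}) \ B] y,
      Rl L m y y' := by
    rintro y ⟨⟨c, c1, rfl⟩, hy⟩
    obtain ⟨h, b1, b2⟩ := hm (G.q c)
    choose A b3 b4 using fun j => D.fn hk S (fun a => hy (hB a)) (G.ind _ hy) (hF.1 j) b1 b2
    filter_upwards [mem_nhdsWithin_of_mem_nhds (eventually_all.2 b4),
      mem_nhdsWithin_of_mem_nhds (vv_near b1 b2), self_mem_nhdsWithin] with y' k1 k2 k3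
    obtain ⟨⟨c', c2, rfl⟩, k4⟩ := k3
    have c3 : G.p c = G.p z := c1
    have c4 : G.p c' = G.p z := c2
    refine hF.rl' b2 k2 fun j => ?_
    refine ((b4 j).self_of_nhds.trans (congrArg (A j) (funext fun l => ?_))).trans (k1 j).symm
    rw [← G.fac c (c3 ▸ h1) hy, ← G.fac c' (c4 ▸ h1) k4, c3, c4]
  exact (G.conn _ h1).induction₂' (fun a b => Rl L m a b)
    (fun y hy => (key y hy).mono fun _ k => ⟨k, k.symm⟩) (fun _ _ _ _ _ _ a b => a.trans hm b)
    ⟨⟨z₀, a1, a2⟩, h1⟩ ⟨⟨z, rfl, rfl⟩, h2⟩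

end Vale.Agent.N301.Fb
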