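import Mathlib.Geometry.Manifold.IsManifold.Basic
import Mathlib.Analysis.Calculus.DifferentialForm.Basic
import Mathlib.MeasureTheory.Integral.Bochner.Set
import Mathlib.MeasureTheory.Measure.Lebesgue.Complex
import Mathlib.Analysis.SpecialFunctions.Log.Basic
import Mathlib.LinearAlgebra.Projectivization.Basic
import Mathlib.AlgebraicTopology.FundamentalGroupoid.SimplyConnected

/-!
# P301: hyperkähler manifolds, line bundles, Lagrangian sets

Everything is written in the charts of a complex manifold `X` modelled on `ℂ^d`.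
-/

open scoped ContDiff Topology
open Complex (I)

noncomputable section

namespace Vale.Agent.N301

/-- `ℂ^d` -/
abbrev Cm (d : ℕ) : Type := Fin d → ℂ

/-- local coordinate systems -/
abbrev Chart (d : ℕ) (X : Type) [TopologicalSpace X] : Type := OpenPartialHomeomorph X (Cm d)

/-- real `k`-forms, given by their expressions in the charts -/
abbrev Form (d : ℕ) (X : Type) [TopologicalSpace X] (k : ℕ) : Type :=
  Chart d X → Cm d → Cm d [⋀^Fin k]→L[ℝ] ℝ

/-- forms of type `(2,0)`, given by their expressions in the charts -/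
abbrev HForm (d : ℕ) (X : Type) [TopologicalSpace X] : Type :=
  Chart d X → Cm d → Cm d [⋀^Fin 2]→L[ℂ] ℂ

variable {d : ℕ} {X : Type} [TopologicalSpace X] [ChartedSpace (Cm d) X] {ι : Type}

/-- `e` is a chart of the atlas of `X` which is defined at `x` -/
def At (e : Chart d X) (x : X) : Prop := e ∈ atlas (Cm d) X ∧ x ∈ e.source

/-- `a` is a smooth real `k`-form on `X` -/
structure IsForm {k : ℕ} (a : Form d X k) : Prop where
  smooth : ∀ e x, At e x → ContDiffAt ℝ ∞ (a e) (e x)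
  change : ∀ e e' x, At e x → At e' x → a e (e x) =
    (a e' (e' x)).compContinuousLinearMap (fderiv ℝ (fun z => e' (e.symm z)) (e x))

/-- `a` is a closed smooth `2`-form -/
def Closed (a : Form d X 2) : Prop := IsForm a ∧ ∀ e x, At e x → extDeriv (a e) (e x) = 0

/-- `a - b` is exact: `a` and `b` have the same class in `H²(X, ℝ)` -/
def Coh (a b : Form d X 2) : Prop := ∃ β : Form d X 1, IsForm β ∧
  ∀ e x, At e x → a e (e x) = b e (e x) + extDeriv (β e) (e x)

/-- `w` is a Kähler form: closed, of type `(1,1)`, positive -/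
structure Kahler (w : Form d X 2) : Prop where
  closed : Closed w
  inv : ∀ e x, At e x → ∀ u v : Cm d, w e (e x) ![I • u, I • v] = w e (e x) ![u, v]
  pos : ∀ e x, At e x → ∀ u : Cm d, u ≠ 0 → 0 < w e (e x) ![u, I • u]

/-- the class of `a` is in the closure of the Kähler cone: in a finite dimensional affine space of
classes through `[a]` there are Kähler classes arbitrarily close to `[a]` -/
def Nef (a : Form d X 2) : Prop := ∃ (r : ℕ) (η : Fin r → Form d X 2), (∀ i, Closed (η i)) ∧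
  ∀ ε : ℝ, 0 < ε → ∃ t : Fin r → ℝ, ‖t‖ < ε ∧ ∃ w, Kahler w ∧ Coh w (a + ∑ i, t i • η i)

/-- `J` is the integral over `X` of the form of top degree which is `D e` times Lebesgue measure in
the chart `e`, computed with any finite partition of unity subordinate to charts -/
def IsIntegral (D : Chart d X → Cm d → ℝ) (J : ℝ) : Prop :=
  ∀ (N : ℕ) (e : Fin N → Chart d X) (ρ : Fin N → X → ℝ), (∀ i, e i ∈ atlas (Cm d) X) →
    (∀ i, Continuous (ρ i)) → (∀ i, tsupport (ρ i) ⊆ (e i).source) → (∀ x, ∑ i, ρ i x = 1) →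
    ∑ i, ∫ z in (e i).target, ρ i ((e i).symm z) * D (e i) z = J

/-- the real basis `∂/∂x_j`, `∂/∂y_j` of `ℂ^d` -/
def bas (p : Fin d × Fin 2) : Cm d := Pi.single p.1 (![1, I] p.2)

/-- the value of `a ∧ … ∧ a` (`d` factors) on `∂/∂x_1, ∂/∂y_1, …, ∂/∂x_d, ∂/∂y_d` -/
def top (a : Cm d [⋀^Fin 2]→L[ℝ] ℝ) : ℝ := (2 ^ d)⁻¹ * ∑ σ : Equiv.Perm (Fin d × Fin 2),
  (Equiv.Perm.sign σ : ℤ) * ∏ i, a ![bas (σ (i, 0)), bas (σ (i, 1))]

/-- `∫_X a^d = 0` -/
def Isotropic (a : Form d X 2) : Prop := IsIntegral (fun e z => top (a e z)) 0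

/-- `s` is a holomorphic `2`-form on `X` -/
structure IsHForm (s : HForm d X) : Prop where
  holo : ∀ e x, At e x → AnalyticAt ℂ (s e) (e x)
  change : ∀ e e' x, At e x → At e' x → s e (e x) =
    (s e' (e' x)).compContinuousLinearMap (fderiv ℂ (fun z => e' (e.symm z)) (e x))

/-- `X` is Kähler, `s` is a nowhere degenerate holomorphic `2`-form and `H⁰(X, Ω²) = ℂ s` -/
structure IHS (s : HForm d X) : Prop where
  kahler : ∃ w : Form d X 2, Kahler w
  form : IsHForm s
  nondeg : ∀ e x, At e x → ∀ u : Cm d, (∀ v, s e (e x) ![u, v] = 0) → u = 0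
  unique : ∀ s' : HForm d X, IsHForm s' → ∃ c : ℂ, ∀ e x, At e x → s' e (e x) = c • s e (e x)

variable (d) in
/-- `f` is holomorphic at `x` -/
def Hol (f : X → ℂ) (x : X) : Prop :=
  ∀ e : Chart d X, At e x → AnalyticAt ℂ (fun z => f (e.symm z)) (e x)

variable (d X ι) in
/-- a holomorphic line bundle, given by its transition functions for an open cover -/
structure LineBundle where
  U : ι → Set X
  isOpen : ∀ i, IsOpen (U i)
  cover : ∀ x, ∃ i, x ∈ U i
  g : ι → ι → X → ℂ
  holo : ∀ i j x, x ∈ U i → x ∈ U j → Hol d (g i j) x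
  ne_zero : ∀ i j x, x ∈ U i → x ∈ U j → g i j x ≠ 0
  cocycle : ∀ i j k x, x ∈ U i → x ∈ U j → x ∈ U k → g i j x * g j k x = g i k x

/-- `f` is a global holomorphic section of `L^m` -/
structure Sec (L : LineBundle d X ι) (m : ℕ) (f : ι → X → ℂ) : Prop where
  holo : ∀ i x, x ∈ L.U i → Hol d (f i) x
  change : ∀ i j x, x ∈ L.U i → x ∈ L.U j → f i x = L.g i j x ^ m * f j x

/-- some `L^m`, `m ≥ 1`, is generated by its global sections -/
def Semiample (L : LineBundle d X ι) : Prop :=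
  ∃ m : ℕ, 0 < m ∧ ∀ x, ∃ f, Sec L m f ∧ ∃ i, x ∈ L.U i ∧ f i x ≠ 0

/-- `h⁰(X, L^m) ≥ k`: there are `k` linearly independent sections of `L^m` -/
def H0 (L : LineBundle d X ι) (m k : ℕ) : Prop := ∃ f : Fin k → ι → X → ℂ, (∀ j, Sec L m (f j)) ∧
  ∀ c : Fin k → ℂ, (∀ i x, x ∈ L.U i → ∑ j, c j * f j i x = 0) → c = 0

/-- `a` is the first Chern form `(i/2π) ∂∂̄ρ_i` of a smooth metric `|f|² = |f_i|² exp (-ρ_i)` on
`L`, so that `[a] = c₁(L)` -/
def Chern (L : LineBundle d X ι) (a : Form d X 2) : Prop := Closed a ∧ ∃ ρ : ι → X → ℝ,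
  (∀ i j x, x ∈ L.U i → x ∈ L.U j → ρ i x = ρ j x + Real.log (‖L.g i j x‖ ^ 2)) ∧
  ∀ i e x, At e x → x ∈ L.U i → ContDiffAt ℝ ∞ (fun z => ρ i (e.symm z)) (e x) ∧ ∀ u v : Cm d,
    a e (e x) ![u, v] = (iteratedFDeriv ℝ 2 (fun z => ρ i (e.symm z)) (e x) ![I • u, v] -
      iteratedFDeriv ℝ 2 (fun z => ρ i (e.symm z)) (e x) ![u, I • v]) / (4 * Real.pi)

/-- `γ` is a holomorphic map from a neighbourhood of `t` in `ℂ^k` to `A`, written in the chart `e` -/
structure Germ (e : Chart d X) (A : Set X) {k : ℕ} (γ : Cm k → Cm d) (t : Cm k) : Prop where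
  chart : e ∈ atlas (Cm d) X
  holo : AnalyticAt ℂ γ t
  mem : γ t ∈ e.target
  sub : ∀ᶠ t' in 𝓝 t, e.symm (γ t') ∈ A

/-- the pull back of `s` by every holomorphic map into `A` is zero, and `A` contains
`n`-dimensional complex submanifolds near each of its points -/
structure Lagrangian (n : ℕ) (s : HForm d X) (A : Set X) : Prop where
  iso : ∀ (e : Chart d X) (k : ℕ) (γ : Cm k → Cm d) t, Germ e A γ t →
    (s e (γ t)).compContinuousLinearMap (fderiv ℂ γ t) = 0
  dim : ∀ x ∈ A, ∀ V ∈ 𝓝 x, ∃ (e : Chart d X) (γ : Cm n → Cm d) (t : Cm n), Germ e A γ t ∧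
    e.symm (γ t) ∈ V ∧ Function.Injective (fderiv ℂ γ t)

end Vale.Agent.N301
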