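import Vale.Agent.N301.Br

/-! P301: the strong hyperkähler SYZ conjecture and the Lagrangian fibration. -/

open scoped Manifold ContDiff Topology LinearAlgebra.Projectivization
open Vale.Agent.N301

namespace Vale.Agent.N301.OldFibration

/-- Let `X` be a compact irreducible holomorphic symplectic Kähler manifold of dimension `2n` and
`L` a holomorphic line bundle. Chern forms `a` of `L` exist and are cohomologous; if `L` is
semiample then `c₁(L) = [a]` is nef. If `c₁(L) ≠ 0` is nef and isotropic, then (1) `L` is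
semiample; (2) the sections of some `L^m` define a map `φ` to a projective space all of whose fibres
are connected and Lagrangian, and which is locally a submersion to `ℂ^n` on a dense open union of
fibres; (3) `h⁰(X, L^m)` grows like `m^n`. -/
theorem fibration :
    ∀ (n : ℕ), 1 ≤ n → ∀ (X : Type) [TopologicalSpace X] [T2Space X] [CompactSpace X]
      [SimplyConnectedSpace X] [ChartedSpace (Cm (2 * n)) X] [IsManifold 𝓘(ℂ, Cm (2 * n)) ω X]
      (s : HForm (2 * n) X), IHS s → ∀ (ι : Type) (L : LineBundle (2 * n) X ι),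
      (∃ a, Chern L a) ∧ (∀ a a', Chern L a → Chern L a' → Coh a a') ∧ ∀ a, Chern L a →
        (Semiample L → Nef a) ∧ (¬ Coh a 0 → Nef a → Isotropic a →
          Semiample L ∧
          (∃ (m N : ℕ) (f : Fin N → ι → X → ℂ) (φ : X → ℙ ℂ (Cm N)), 0 < m ∧
            (∀ j, Sec L m (f j)) ∧
            (∀ g, Sec L m g → ∃ c : Fin N → ℂ, ∀ i x, x ∈ L.U i → g i x = ∑ j, c j * f j i x) ∧
            (∀ i x, x ∈ L.U i → ∃ h : (fun j => f j i x) ≠ 0, φ x = Projectivization.mk ℂ _ h) ∧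
            (∀ x, IsConnected (φ ⁻¹' {φ x}) ∧ Lagrangian n s (φ ⁻¹' {φ x})) ∧
            ∃ O : Set X, IsOpen O ∧ Dense O ∧ (∀ x ∈ O, φ ⁻¹' {φ x} ⊆ O) ∧
              ∀ x ∈ O, ∀ e, At e x → ∃ u : Cm (2 * n) → Cm n, AnalyticAt ℂ u (e x) ∧
                Function.Surjective (fderiv ℂ u (e x)) ∧
                ∃ U ∈ 𝓝 x, ∀ y ∈ U, ∀ y' ∈ U, φ y = φ y' ↔ u (e y) = u (e y')) ∧
          ∃ (K : ℕ) (c C : ℝ), 0 < K ∧ 0 < c ∧ ∀ m k : ℕ,
            ((k : ℝ) ≤ c * m ^ n → H0 L (K * m) k) ∧ (H0 L m k → (k : ℝ) ≤ C * (m + 1) ^ n)) :=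
  fun n hn X _ _ _ _ _ _ s hs ι L => Br.main n hn _ (two_mul n) X s hs ι L

end Vale.Agent.N301.OldFibration
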