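import Vale.Agent.N301.Defs
import Vale.Agent.P301W.Plug
import Vale.Agent.P284Z.F0.Levi
import Vale.Agent.P301Z.Lat.Rel

/-!
# P301: forms and matrices
-/

open scoped Manifold ContDiff Topology ComplexConjugate Matrix ComplexOrder
open Complex (I)
open Filter
open Vale.Agent.P272.K Vale.Agent.P272.K.N
open Vale.Agent.P281Z (Mf)
open Vale.Agent.P301Z.Lat
open Vale.Agent.P301W (Alt Z2 cls Rp t2)
open Vale.Agent.P301W13 (alt_swap lin_left lin_right)
open Vale.Agent.P301.H599 (IsSymplectic IsHolTwoForm)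

set_option linter.unusedSectionVars false

noncomputable section

namespace Vale.Agent.N301.Br

variable {d : ℕ}

/-- `a = i Σ W_jk dz_j ∧ dz̄_k` -/
def Fml (a : Alt d 2) (W : Matrix (Fin d) (Fin d) ℂ) : Prop := ∀ u v : Cm d, (a ![u, v] : ℂ) =
  I * ∑ j, ∑ k, W j k * (u j * conj (v k) - v j * conj (u k))

theorem bil_eq (B : Bil d) (u v : Cm d) : B u v = ∑ j, ∑ k,
    ((u j).re * (v k).re * B (Pi.single j 1) (Pi.single k 1) +
      (u j).re * (v k).im * B (Pi.single j 1) (Pi.single k I) +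
      (u j).im * (v k).re * B (Pi.single j I) (Pi.single k 1) +
      (u j).im * (v k).im * B (Pi.single j I) (Pi.single k I)) := by
  conv_lhs => rw [decomp u, decomp v]
  simp only [map_sum, _root_.sum_apply, map_add, map_smul,
    _root_.add_apply, _root_.smul_apply, smul_eq_mul]
  rw [Finset.sum_comm]
  refine Finset.sum_congr rfl fun j _ => ?_
  simp only [Finset.mul_sum, ← Finset.sum_add_distrib]
  refine Finset.sum_congr rfl fun k _ => ?_
  ring

theorem lev_sesq (B : Bil d) (u v : Cm d) : ∑ j, ∑ k, lev B j k * (u j * conj (v k)) =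
    (B u v + B (I • u) (I • v) + I * (B u (I • v) - B (I • u) v)) / 4 := by
  rw [bil_eq B u v, bil_eq B (I • u) (I • v), bil_eq B u (I • v), bil_eq B (I • u) v]
  push_cast
  simp only [← Finset.sum_add_distrib, ← Finset.sum_sub_distrib, Finset.mul_sum, Finset.sum_div]
  refine Finset.sum_congr rfl fun j _ => Finset.sum_congr rfl fun k _ => ?_
  rw [lev_apply]
  apply Complex.ext <;> simp <;> ring

theorem fml_lev {B : Bil d} (hB : ∀ v w, B v w = B w v) (u v : Cm d) :
    I * ∑ j, ∑ k, lev B j k * (u j * conj (v k) - v j * conj (u k)) =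
      ((B (I • u) v - B u (I • v)) / 2 : ℝ) := by
  simp only [mul_sub, Finset.sum_sub_distrib]
  rw [lev_sesq, lev_sesq, hB v u, hB (I • v) (I • u), hB v (I • u), hB (I • v) u]
  push_cast
  linear_combination ((B u (I • v) : ℂ) - B (I • u) v) / 2 * Complex.I_mul_I

theorem II (v : Cm d) : I • I • v = (-1 : ℝ) • v := by
  rw [smul_smul, Complex.I_mul_I]
  simp

theorem fml_of_inv {a : Alt d 2} (h : ∀ u v : Cm d, a ![I • u, I • v] = a ![u, v]) :
    ∃ W, Fml a W := by
  let B : Bil d := LinearMap.toContinuousBilinearMap (LinearMap.mk₂ ℝ (fun u v => a ![u, I • v])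
    (fun x y v => by exact_mod_cast (lin_left a (I • v)).map_add x y)
    (fun c x v => by simpa using congrArg Complex.re ((lin_left a (I • v)).map_smul c x))
    (fun x u v => by rw [smul_add]; exact_mod_cast (lin_right a x).map_add _ _)
    (fun c x v => by
      rw [smul_comm]
      simpa using congrArg Complex.re ((lin_right a x).map_smul c (I • v))))
  have h1 : ∀ u v, B u v = a ![u, I • v] := fun _ _ => rfl
  have h2 : ∀ u v : Cm d, a ![u, I • I • v] = -a ![u, v] := fun u v => by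
    rw [II]
    simpa using congrArg Complex.re ((lin_right a u).map_smul (-1) v)
  refine ⟨lev B, fun u v => ?_⟩
  rw [fml_lev fun v w => by rw [h1, h1, ← h v, h2, alt_swap, neg_neg], h1, h1, h2, h]
  push_cast
  ring

theorem Fml.inv {a : Alt d 2} {W} (h : Fml a W) (u v : Cm d) : a ![I • u, I • v] = a ![u, v] := by
  refine Complex.ofReal_injective ?_
  rw [h, h]
  refine congrArg _ (Finset.sum_congr rfl fun j _ => Finset.sum_congr rfl fun k _ => ?_)
  simp only [Pi.smul_apply, smul_eq_mul, map_mul, Complex.conj_I]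
  linear_combination (W j k * (v j * conj (u k) - u j * conj (v k))) * Complex.I_mul_I

theorem Fml.quad {a : Alt d 2} {W} (h : Fml a W) (x : Cm d) :
    (a ![star x, I • star x] : ℂ) = 2 * (star x ⬝ᵥ W *ᵥ x) := by
  rw [h]
  simp only [dotProduct, Matrix.mulVec, Finset.mul_sum]
  refine Finset.sum_congr rfl fun j _ => Finset.sum_congr rfl fun k _ => ?_
  simp only [Pi.smul_apply, smul_eq_mul, map_mul, Complex.conj_I, Pi.star_apply,
    Complex.star_def, Complex.conj_conj]
  linear_combination (-2 * W j k * conj (x j) * x k) * Complex.I_mul_I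

theorem Fml.smul {a : Alt d 2} {W} (h : Fml a W) (c : ℝ) : Fml (c • a) ((c : ℂ) • W) :=
  fun u v => by
    rw [ContinuousAlternatingMap.smul_apply, smul_eq_mul, Complex.ofReal_mul, h]
    simp only [Matrix.smul_apply, smul_eq_mul, Finset.mul_sum]
    exact Finset.sum_congr rfl fun j _ => Finset.sum_congr rfl fun k _ => by ring

theorem fml_hess {f : Cm d → ℝ} {z : Cm d} (hf : ContDiffAt ℝ 2 f z) {a : Alt d 2} :
    Fml ((2 * Real.pi) • a) (cHess f z) ↔ ∀ u v : Cm d, a ![u, v] =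
      (iteratedFDeriv ℝ 2 f z ![I • u, v] - iteratedFDeriv ℝ 2 f z ![u, I • v]) / (4 * Real.pi) := by
  refine forall₂_congr fun u v => ?_
  rw [cHess_eq_lev (P284Z.diff_fderiv hf), fml_lev (P284Z.hess_symm hf),
    Complex.ofReal_inj, iteratedFDeriv_two_apply, iteratedFDeriv_two_apply,
    ContinuousAlternatingMap.smul_apply, smul_eq_mul, eq_div_iff (by positivity),
    eq_div_iff (by positivity)]
  simp only [Matrix.cons_val_zero, Matrix.cons_val_one]
  constructor <;> intro h <;> linarith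

/-- the matrix of a form of type `(2,0)` -/
def mt (s : Cm d [⋀^Fin 2]→L[ℂ] ℂ) : Matrix (Fin d) (Fin d) ℂ :=
  Matrix.of fun i j => s ![Pi.single i 1, Pi.single j 1]

theorem mt_val (s : Cm d [⋀^Fin 2]→L[ℂ] ℂ) (u v : Cm d) : s ![u, v] = u ⬝ᵥ (mt s *ᵥ v) := by
  have h1 : (![u, v] : Fin 2 → Cm d) = fun i => ∑ j, ![u, v] i j • (Pi.single j 1 : Cm d) :=
    funext fun i => pi_eq_sum_univ' _
  have h2 := s.toContinuousMultilinearMap.map_sum
    (fun i j => (![u, v] : Fin 2 → Cm d) i j • (Pi.single j 1 : Cm d))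
  rw [← h1, ← (finTwoArrowEquiv _).symm.sum_comp, Fintype.sum_prod_type] at h2
  refine h2.trans ?_
  simp only [dotProduct, Matrix.mulVec, Finset.mul_sum]
  refine Finset.sum_congr rfl fun j _ => Finset.sum_congr rfl fun k _ => ?_
  rw [ContinuousMultilinearMap.map_smul_univ, Fin.prod_univ_two]
  have h3 : (fun i => (Pi.single ((finTwoArrowEquiv (Fin d)).symm (j, k) i) 1 : Cm d)) =
      ![Pi.single j 1, Pi.single k 1] := funext fun i => by fin_cases i <;> rfl
  rw [h3]
  simp [mt]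
  ring

theorem mt_skew (s : Cm d [⋀^Fin 2]→L[ℂ] ℂ) : (mt s)ᵀ = -mt s := by
  ext i j
  have h := s.toAlternatingMap.map_swap ![Pi.single i 1, Pi.single j 1] (i := 0) (j := 1)
    (by decide)
  have e : (![Pi.single i 1, Pi.single j 1] : Fin 2 → Cm d) ∘ Equiv.swap 0 1 =
      ![Pi.single j 1, Pi.single i 1] := funext fun i => by fin_cases i <;> rfl
  rw [e] at h
  exact h

theorem ext2 {k : ℕ} {s s' : Cm k [⋀^Fin 2]→L[ℂ] ℂ} (h : ∀ u v, s ![u, v] = s' ![u, v]) :
    s = s' := ContinuousAlternatingMap.ext fun m => by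
  rw [show m = ![m 0, m 1] from funext fun i => by fin_cases i <;> rfl]
  exact h _ _

theorem comp_val {k : ℕ} (s : Cm d [⋀^Fin 2]→L[ℂ] ℂ) (T : Cm k →L[ℂ] Cm d) (u v : Cm k) :
    s.compContinuousLinearMap T ![u, v] = T u ⬝ᵥ (mt s *ᵥ T v) := by
  rw [← mt_val]
  exact congrArg s (funext fun i => by fin_cases i <;> rfl)

theorem mx_ext {A B : Matrix (Fin d) (Fin d) ℂ} (h : ∀ u v, u ⬝ᵥ (A *ᵥ v) = u ⬝ᵥ (B *ᵥ v)) :
    A = B := Matrix.ext fun i j => by simpa using h (Pi.single i 1) (Pi.single j 1)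

/-- `dz_i ∧ dz_j` -/
def ww (i j : Fin d) : Cm d [⋀^Fin 2]→L[ℂ] ℂ := ContinuousMultilinearMap.alternatization
  ((ContinuousMultilinearMap.mkPiAlgebra ℂ (Fin 2) ℂ).compContinuousLinearMap
    fun l => ContinuousLinearMap.proj (![i, j] l))

theorem ww_val (i j : Fin d) (u v : Cm d) : ww i j ![u, v] = u i * v j - v i * u j := by
  rw [ww, ContinuousMultilinearMap.alternatization_apply_apply,
    show (Finset.univ : Finset (Equiv.Perm (Fin 2))) = {1, Equiv.swap 0 1} by decide,
    Finset.sum_pair (by decide)]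
  simp [sub_eq_add_neg]

theorem mt_ww {S : Matrix (Fin d) (Fin d) ℂ} (h : Sᵀ = -S) :
    mt (∑ i, ∑ j, (S i j / 2) • ww i j) = S := by
  ext a b
  have h1 : S b a = -S a b := congrFun (congrFun h a) b
  simp [mt, ContinuousAlternatingMap.sum_apply, ww_val, Pi.single_apply, mul_sub,
    Finset.sum_sub_distrib, h1]
  ring

variable {V : Mf d}

theorem jac_val {e e' : Chart d V.X} {x : V.X} (h : At e x) (h' : At e' x) (v : Cm d) :
    jacM e e' x *ᵥ v = fderiv ℂ (fun z => e' (e.symm z)) (e x) v :=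
  P301Z.Ho.Vb.gr_pi (π := e') (P277Z.trans_an h' h) v

theorem chg_iff {e e' : Chart d V.X} {x : V.X} (h : At e x) (h' : At e' x)
    (s s' : Cm d [⋀^Fin 2]→L[ℂ] ℂ) :
    s = s'.compContinuousLinearMap (fderiv ℂ (fun z => e' (e.symm z)) (e x)) ↔
      mt s = (jacM e e' x)ᵀ * mt s' * jacM e e' x := by
  have k : ∀ u v, s'.compContinuousLinearMap (fderiv ℂ (fun z => e' (e.symm z)) (e x)) ![u, v] =
      u ⬝ᵥ (((jacM e e' x)ᵀ * mt s' * jacM e e' x) *ᵥ v) := fun u v => by
    rw [comp_val, ← jac_val h h', ← jac_val h h', Matrix.mul_assoc, ← Matrix.mulVec_mulVec,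
      Matrix.dotProduct_mulVec u, Matrix.vecMul_transpose, Matrix.mulVec_mulVec]
  exact ⟨fun a => mx_ext fun u v => by rw [← mt_val, ← k, ← a],
    fun a => ext2 fun u v => by rw [mt_val, k, a]⟩

theorem symp {s : HForm d V.X} (h : IHS s) {W : Fld V} (hW : IsKahler W) :
    IsSymplectic d V.X W fun e z => mt (s e z) := by
  have key : ∀ {s : HForm d V.X}, IsHForm s → IsHolTwoForm fun e z => mt (s e z) := fun h =>
    ⟨fun e x hx i j => ((ContinuousAlternatingMap.apply ℂ (Cm d) ℂ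
      ![Pi.single i 1, Pi.single j 1]).analyticAt _).comp (h.1 e x hx),
      fun e x _ => mt_skew _, fun e e' x a b => (chg_iff a b _ _).1 (h.2 e e' x a b)⟩
  refine ⟨hW, key h.form, fun e x hx k => ?_, fun S hS => ?_⟩
  · obtain ⟨u, h1, h2⟩ := Matrix.exists_vecMul_eq_zero_iff.2 k
    exact h1 (h.nondeg e x hx u fun v => by
      rw [mt_val, Matrix.dotProduct_mulVec, h2, zero_dotProduct])
  · obtain ⟨c, hc⟩ := h.unique (fun e z => ∑ i, ∑ j, (S e z i j / 2) • ww i j)
      ⟨fun e x hx => Finset.analyticAt_fun_sum _ fun i _ => Finset.analyticAt_fun_sum _ fun j _ =>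
        (hS.holo e x hx i j).div_const.fun_smul analyticAt_const, fun e e' x a b =>
        (chg_iff a b _ _).2 (by rw [mt_ww (hS.alt e x a), mt_ww (hS.alt e' x b), hS.change e e' x a b])⟩
    exact ⟨c, fun e x hx => (mt_ww (hS.alt e x hx)).symm.trans (congrArg mt (hc e x hx))⟩

/-- a closed form as an element of the space of closed forms -/
def z2 {a : Form d V.X 2} (h : Closed a) : Z2 d V.X :=
  ⟨a, ⟨fun e x k _ => h.1.1 e x k, fun e e' x k k' _ => h.1.2 e e' x k k'⟩, h.2⟩

theorem closed_of (a : Z2 d V.X) : Closed a.1 :=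
  ⟨⟨fun e x k => a.2.1.1 e x k trivial, fun e e' x k k' => a.2.1.2 e e' x k k' trivial⟩, a.2.2⟩

theorem coh_iff (a b : Z2 d V.X) : Coh a.1 b.1 ↔ cls a = cls b := by
  rw [cls, cls, Submodule.Quotient.eq]
  exact exists_congr fun β => and_congr
    ⟨fun h => ⟨fun e x k _ => h.1 e x k, fun e e' x k k' _ => h.2 e e' x k k'⟩,
      fun h => ⟨fun e x k => h.1 e x k trivial, fun e e' x k k' => h.2 e e' x k k' trivial⟩⟩
    (forall₃_congr fun e x _ => sub_eq_iff_eq_add'.symm)

open P301W in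
theorem form_of {W : Fld V} (h : R11 W) :
    ∃ a : Z2 d V.X, ∀ e x, At e x → Fml (a.1 e (e x)) (W e (e x)) := by
  obtain ⟨u, hu⟩ := lat.d11.ex h
  obtain ⟨a, ha⟩ := (P301W59.rep_row tools _ V).2.1 u (lat.d11.cl h hu).1 (lat.d11.cl h hu).2
  exact ⟨a, (As.is11 P301W13.f11 ha).1 hu⟩

open P301W in
theorem kahler_of {w : Form d V.X 2} (h : Kahler w) :
    ∃ W : Fld V, IsKahler W ∧ ∀ e x, At e x → Fml (w e (e x)) (W e (e x)) := by
  obtain ⟨r1, -, r3⟩ := P301W59.rep_row tools _ V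
  obtain ⟨u, hu⟩ := r1 (z2 h.closed)
  obtain ⟨W, h1, h2⟩ := lat.d11.of (r3 _ u hu).1 (r3 _ u hu).2.1 fun e x hx => by
    obtain ⟨W, hW⟩ := fml_of_inv (h.inv e x hx)
    rw [hu e x hx, show t2 ((z2 h.closed).1 e (e x)) = _ from (P301W13.f11 _ _ W).2 hW,
      lat.pwa.pm11]
  have h3 := (As.is11 P301W13.f11 hu).1 h2
  refine ⟨W, h1.kah fun e x hx => .of_dotProduct_mulVec_pos (h1.herm e x hx) fun y hy => ?_, h3⟩
  have h4 := Complex.zero_lt_real.2 (h.pos e x hx (star y) (star_ne_zero.2 hy))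
  rw [Fml.quad (a := w e (e x)) (h3 e x hx)] at h4
  exact (mul_pos_iff_of_pos_left two_pos).1 h4

theorem of_kahler {W : Fld V} (h : IsKahler W) {a : Z2 d V.X}
    (ha : ∀ e x, At e x → Fml (a.1 e (e x)) (W e (e x))) : Kahler a.1 := by
  refine ⟨closed_of a, fun e x hx => (ha e x hx).inv, fun e x hx u hu => ?_⟩
  have h1 := (ha e x hx).quad (star u)
  rw [star_star] at h1
  have h2 := (h.posDef e x hx).dotProduct_mulVec_pos (star_ne_zero.2 hu)
  rw [star_star] at h2
  rw [← Complex.zero_lt_real, h1]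
  positivity

end Vale.Agent.N301.Br
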